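import Vale.Agent.P361.LRO.Defs

/-!
P361 LRO, skeleton of the lower interfaces (helper118).  Every block proves its statements in its
own file under the same name; this file is only for type checking downstream work.
-/

namespace Vale.Agent.P361.LRO.Skel

open Finset Matrix Filter

noncomputable section

variable {X : Type} [Fintype X] [DecidableEq X]

/-! ### (SR) helper472 -/

theorem stable_of_isLaw {μ : Equiv.Perm X → ℝ} (hμ : IsLaw μ) {θ : X → ℝ}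
    (hθ : ∀ x, 0 ≤ θ x ∧ θ x ≤ 1) : Stable μ θ := by
  sorry

/-! ### (Net basics) helper169, helper179 -/

theorem isLaw_nonneg {μ : Equiv.Perm X → ℝ} (hμ : IsLaw μ) (π : Equiv.Perm X) : 0 ≤ μ π := by
  sorry

theorem ZZ_pos {μ : Equiv.Perm X → ℝ} (hμ : IsLaw μ) {θ : X → ℝ} (hθ : ∀ x, 0 ≤ θ x ∧ θ x ≤ 1) :
    0 < ZZ μ θ := by
  sorry

theorem cc_nonneg {μ : Equiv.Perm X → ℝ} (hμ : IsLaw μ) {θ : X → ℝ}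
    (hθ : ∀ x, 0 ≤ θ x ∧ θ x ≤ 1) {u v : X} (huv : u ≠ v) : 0 ≤ cc μ θ u v := by
  sorry

theorem cc_symm (μ : Equiv.Perm X → ℝ) (θ : X → ℝ) (u v : X) : cc μ θ u v = cc μ θ v u := by
  sorry

theorem vv_eq_sum {μ : Equiv.Perm X → ℝ} (hμ : IsLaw μ) {θ : X → ℝ}
    (hθ : ∀ x, 0 ≤ θ x ∧ θ x ≤ 1) (z : X) :
    vv μ θ z = ∑ x ∈ univ.erase z, cc μ θ z x := by
  sorry

theorem KK_eq {μ : Equiv.Perm X → ℝ} (hμ : IsLaw μ) {θ : X → ℝ}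
    (hθ : ∀ x, 0 ≤ θ x ∧ θ x ≤ 1) (a : X → ℝ) :
    KK μ θ a = (1 / 2) * ∑ u, ∑ v, cc μ θ u v * (a u - a v) ^ 2 := by
  sorry

theorem mag_mem {μ : Equiv.Perm X → ℝ} (hμ : IsLaw μ) {θ : X → ℝ}
    (hθ : ∀ x, 0 ≤ θ x ∧ θ x ≤ 1) (z : X) : 0 ≤ mag μ θ z ∧ mag μ θ z ≤ 1 := by
  sorry

theorem vv_eq_mag {μ : Equiv.Perm X → ℝ} (hμ : IsLaw μ) {θ : X → ℝ}
    (hθ : ∀ x, 0 ≤ θ x ∧ θ x ≤ 1) (z : X) :
    vv μ θ z = θ z * mag μ θ z / (1 + θ z * mag μ θ z) := by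
  sorry

/-! ### (ODE) helper129, helper908 -/

/-- one node: derivative of `K` with respect to `log θ_z` -/
theorem one_node {μ : Equiv.Perm X → ℝ} (hμ : IsLaw μ) {θ : X → ℝ}
    (hθ : ∀ x, 0 ≤ θ x ∧ θ x ≤ 1) (z : X) (hz : 0 < θ z) (a : X → ℝ) :
    EE μ θ (fun π s => (∑ x, a x * jj π s x) ^ 2 * jj π s z ^ 2) - KK μ θ a * vv μ θ z ≤
      (1 - vv μ θ z) *
        ((∑ x, cc μ θ z x * (a x - a z)) ^ 2 / vv μ θ z +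
          Real.sqrt (1 - mag μ θ z ^ 2) *
            ((∑ x, cc μ θ z x * (a x - a z) ^ 2) -
              (∑ x, cc μ θ z x * (a x - a z)) ^ 2 / vv μ θ z)) := by
  sorry

/-- primal ODE -/
theorem ode_LB {μ : Equiv.Perm X → ℝ} (hμ : IsLaw μ) {θ0 θ1 : X → ℝ}
    (h0 : ∀ x, 0 ≤ θ0 x) (h01 : ∀ x, θ0 x ≤ θ1 x) (h1 : ∀ x, θ1 x ≤ 1)
    (hpos : ∀ x, θ0 x < θ1 x → 0 < θ0 x) {E G : Finset X} (hEG : Disjoint E G)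
    (hE : ∀ x ∈ E, θ0 x = θ1 x) (hG : ∀ x ∈ G, θ0 x = θ1 x) {τ : ℝ} (hτ : 0 ≤ τ)
    (hmag : ∀ s : ℝ, 0 ≤ s → ∀ z, θ0 z < θ1 z →
      Real.sqrt (1 - mag μ (fun x => max (θ0 x) (Real.exp (-s) * θ1 x)) z ^ 2) ≤ τ)
    {c : ℝ} (hc : LB μ θ1 E G c) {S : ℝ} (hS : 0 ≤ S) :
    LB μ θ0 E G (Real.exp (-(2 * τ * S)) * c - τ * Real.exp (-S) *
      ∑ z ∈ univ.filter (fun z => θ0 z < θ1 z), θ1 z) := by
  sorry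

/-- dual ODE -/
theorem ode_RB {μ : Equiv.Perm X → ℝ} (hμ : IsLaw μ) {θ0 θ1 : X → ℝ}
    (h0 : ∀ x, 0 ≤ θ0 x) (h01 : ∀ x, θ0 x ≤ θ1 x) (h1 : ∀ x, θ1 x ≤ 1)
    (hpos : ∀ x, θ0 x < θ1 x → 0 < θ0 x) {E : Finset X} (hEne : E.Nonempty)
    (hE : ∀ x ∈ E, θ0 x = θ1 x) {q : X → ℝ} (hq : ∀ x, 0 ≤ q x) (hq1 : ∑ x, q x = 1)
    (hqE : ∀ x ∈ E, q x = 0) {τ : ℝ} (hτ : 0 ≤ τ)
    (hmag : ∀ s : ℝ, 0 ≤ s → ∀ z, θ0 z < θ1 z →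
      Real.sqrt (1 - mag μ (fun x => max (θ0 x) (Real.exp (-s) * θ1 x)) z ^ 2) ≤ τ ∧
        1 / 2 ≤ mag μ (fun x => max (θ0 x) (Real.exp (-s) * θ1 x)) z)
    {R : ℝ} (hR0 : 0 ≤ R) (hR : RB μ θ1 E q R) {S : ℝ} (hS : 0 ≤ S)
    (hS1 : ∀ x, θ1 x ≤ Real.exp S * θ0 x) :
    RB μ θ0 E q (Real.exp (2 * τ * S) *
      (R + 4 * ∑ z ∈ univ.filter (fun z => θ0 z < θ1 z), q z ^ 2 / θ0 z)) := by
  sorry

/-! ### (LOC) helper163, helper759 -/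

section Phys

variable {V : Type} [Fintype V] [DecidableEq V]

theorem isLaw_phys (L : List (V × V)) {β : ℝ} (hβ : 0 ≤ β) {N : ℕ} (hN : β ≤ N) :
    IsLaw (phys L β N) := by
  sorry

/-- number of entries of `L` touching `x` -/
def deg (L : List (V × V)) (x : V) : ℕ := (L.filter fun e => e.1 = x ∨ e.2 = x).length

theorem loc : ∃ c0 : ℝ, 0 < c0 ∧ ∀ {V : Type} [Fintype V] [DecidableEq V] (L : List (V × V)),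
    (∀ x, deg L x ≤ 6) → ∀ (β : ℝ), 1 ≤ β → ∀ N : ℕ, 8 * β ≤ N → ∀ h T : V → ℝ,
    (∀ x, 0 ≤ h x ∧ h x ≤ 1) → (∀ x, 0 ≤ T x ∧ T x ≤ 1) →
    (∀ (k k' : Fin (N + 1)) (x : V), 0 < k → k < k' → ((k' : ℝ) - (k : ℝ)) * β / N ≤ 1 →
      c0 * (β * h x / (2 * N)) ^ 2 ≤ cc (phys L β N) (th β N h T) (k, x) (k', x)) ∧
    (∀ (k k' : Fin (N + 1)) (x y : V), 0 < k → k < k' → 1 / 4 ≤ ((k' : ℝ) - (k : ℝ)) * β / N →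
      ((k' : ℝ) - (k : ℝ)) * β / N ≤ 1 → ((x, y) ∈ L ∨ (y, x) ∈ L) → x ≠ y →
      c0 * (β * h x / (2 * N)) * (β * h y / (2 * N)) ≤
        cc (phys L β N) (th β N h T) (k, x) (k', y)) ∧
    (∀ (k : Fin (N + 1)) (x : V), 0 < k → (k : ℝ) * β / N ≤ 1 →
      c0 * T x * (β * h x / (2 * N)) ≤ cc (phys L β N) (th β N h T) (0, x) (k, x)) := by
  sorry

/-! ### (Dict + tilt) helper179, helper939 -/

/-- magnetization at all physical nodes, in presence of the extra slice -/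
theorem tr_mag (L : List (V × V)) {β : ℝ} (hβ : 0 < β) {K : ℝ} (hK : 0 ≤ K) {b : Finset V}
    (hb : b.Nonempty) {η : ℝ} (hη : 0 < η) :
    ∀ᶠ N : ℕ in atTop, ∀ h : V → ℝ, (∀ x, 0 ≤ h x ∧ h x ≤ 1) → (∀ x, rho L β h x ≤ η) →
      ∀ z : Fin (N + 1) × V, z.1 ≠ 0 →
        1 - 4 * Real.exp (K * η) * η ≤ mag (phys L β N) (th β N h (blk K b)) z := by
  sorry

/-! ### (1) helper733, helper111 -/

/-- energy of the pairs in `b` -/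
def pairE (L : List (V × V)) (β : ℝ) (h : V → ℝ) (b : Finset V) : ℝ :=
  (∑ x ∈ b, ∑ y ∈ b, gib L β h (hM x y)) / (b.card : ℝ) ^ 2

theorem twist : ∃ C1 : ℝ, 0 < C1 ∧ ∀ {V : Type} [Fintype V] [DecidableEq V] (L : List (V × V)),
    (∀ e ∈ L, e.1 ≠ e.2) → ∀ (β : ℝ), 0 < β → ∀ h : V → ℝ, (∀ x, 0 ≤ h x ∧ h x ≤ 1) →
    ∀ (K : ℝ), 1 ≤ K → ∀ b : Finset V, b.Nonempty → K ≤ b.card → ∀ κ : ℝ, 0 < κ →
    (∃ᶠ N : ℕ in atTop, κ ≤ kap L β N h K b) →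
    (∑ x ∈ b, rho L β h x) / b.card ≤ 3 / κ + C1 * (1 + K) ^ 4 * pairE L β h b := by
  sorry

end Phys

/-! ### (VOL3) helper494, helper358: the cube `[0, 3^M)³` as `Fin 3 → Fin (3^M)` -/

/-- nearest neighbour Dirichlet energy on the cube of side `R` (each edge once) -/
def dir3 (R : ℕ) (f : (Fin 3 → Fin R) → ℝ) : ℝ :=
  ∑ x : Fin 3 → Fin R, ∑ i : Fin 3, ∑ y : Fin 3 → Fin R,
    if (∀ j, j ≠ i → y j = x j) ∧ (y i : ℕ) = (x i : ℕ) + 1 then (f x - f y) ^ 2 else 0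

/-- triadic subcube of side `3^m` with corner `3^m * p` -/
def sub3 (M m : ℕ) (p : Fin 3 → ℕ) : Finset (Fin 3 → Fin (3 ^ M)) :=
  univ.filter fun x => ∀ i, (x i : ℕ) / 3 ^ m = p i

theorem vol3 : ∃ c C : ℝ, 0 < c ∧ 0 < C ∧ ∀ (M m : ℕ), m ≤ M → ∀ p : Fin 3 → ℕ,
    (∀ i, p i < 3 ^ (M - m)) → ∀ f : (Fin 3 → Fin (3 ^ M)) → ℝ, (∀ x, 0 ≤ f x ∧ f x ≤ 1) →
    ∑ x ∈ sub3 M m p, f x ≤ (1 / 16) * (3 ^ m : ℝ) ^ 3 → dir3 (3 ^ M) f ≤ c * 3 ^ m →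
    ((univ.filter fun x => 1 / 4 ≤ f x).card : ℝ) ≤
      C * (dir3 (3 ^ M) f + dir3 (3 ^ M) f ^ 3) := by
  sorry

theorem mean3 : ∃ C : ℝ, 0 < C ∧ ∀ (M m : ℕ), m ≤ M → M ≤ m + 3 → ∀ p q : Fin 3 → ℕ,
    (∀ i, p i < 3 ^ (M - m)) → (∀ i, q i < 3 ^ (M - m)) → ∀ f : (Fin 3 → Fin (3 ^ M)) → ℝ,
    ((∑ x ∈ sub3 M m p, f x) / (3 ^ m : ℝ) ^ 3 - (∑ x ∈ sub3 M m q, f x) / (3 ^ m : ℝ) ^ 3) ^ 2 ≤
      C * dir3 (3 ^ M) f / 3 ^ m := by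
  sorry

/-! ### (6) helper219, helper487 -/

theorem kappa_lower : ∃ c3 : ℝ, 0 < c3 ∧ ∀ A : ℝ, 0 < A → ∃ β0 : ℝ, ∀ β : ℝ, β0 ≤ β →
    ∀ a : ℕ, β ^ (0.35 : ℝ) ≤ 3 ^ a → (3 : ℝ) ^ a ≤ 3 * β ^ (0.35 : ℝ) →
    ∃ n0 : ℕ, ∀ (n : ℕ) [NeZero n], n0 ≤ n → ∀ h0 : ℝ, (n : ℝ) ^ (-(1 / 4) : ℝ) ≤ h0 → h0 ≤ 1 →
    (∀ h, Fam n h0 (β ^ (-0.9 : ℝ)) h → ∀ x, rho (edges n) β h x ≤ β ^ (-(1 / 100) : ℝ)) →
    ∀ h, Fam n h0 (β ^ (-0.9 : ℝ)) h → ∀ x0 : Tor n,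
      ∃ᶠ N : ℕ in atTop, c3 * (A * β ^ (1 / 100 : ℝ)) ≤
        kap (edges n) β N h (A * β ^ (1 / 100 : ℝ)) (cube n x0 (3 ^ a)) := by
  sorry

/-! ### (7) helper348, helper351 -/

theorem energy : ∃ C : ℝ, 0 < C ∧ ∀ (n : ℕ) [NeZero n] (β : ℝ), 1 ≤ β → ∀ h : Tor n → ℝ,
    (∀ x, 0 ≤ h x) → ∀ w m : ℕ, 1 ≤ w → 1 ≤ m → w * m + 2 ≤ n → ∀ x0 : Tor n,
    (∑ y : Fin 3 → Fin m,
      pairE (edges n) β h (cube n (x0 + fun i => ((w * (y i : ℕ) : ℕ) : ZMod n)) w)) / (m : ℝ) ^ 3 ≤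
      C * (w : ℝ) ^ 2 * (1 / β + 1 / (w * m)) := by
  sorry

/-! ### (8) helper886, helper186 -/

theorem regular {V : Type} [Fintype V] [DecidableEq V] (L : List (V × V))
    (hL : ∀ e ∈ L, e.1 ≠ e.2) {β : ℝ} (hβ : 0 < β)
    {h h' : V → ℝ} (hh : ∀ x, 0 < h x) (hh' : ∀ x, 0 < h' x) {σ : ℝ} (hσ : 0 ≤ σ)
    (hσ1 : 3 * σ < Real.pi / 2)
    (hc : ∀ x, h x ≤ Real.exp σ * h' x ∧ h' x ≤ Real.exp σ * h x) (z : V) :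
    rho L β h z < 1 / 2 ∧
    1 / (1 - 2 * rho L β h' z) - 1 ≤
      2 * (1 / (1 - 2 * rho L β h z) - 1) + (9 / 2) * σ ^ 2 := by
  sorry

end

end Vale.Agent.P361.LRO.Skel
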